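/-!
P022E: the namespaces which the ported files open.
-/

namespace Vale.Agent.P022D.As.Ad
end Vale.Agent.P022D.As.Ad
namespace Vale.Agent.P022E.As.Ad
end Vale.Agent.P022E.As.Ad
namespace Vale.Agent.P022D.As.Aq
end Vale.Agent.P022D.As.Aq
namespace Vale.Agent.P022E.As.Aq
end Vale.Agent.P022E.As.Aq
namespace Vale.Agent.P022D.As.Bas
end Vale.Agent.P022D.As.Bas
namespace Vale.Agent.P022E.As.Bas
end Vale.Agent.P022E.As.Bas
namespace Vale.Agent.P022D.As.CD.Loc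
end Vale.Agent.P022D.As.CD.Loc
namespace Vale.Agent.P022E.As.CD.Loc
end Vale.Agent.P022E.As.CD.Loc
namespace Vale.Agent.P022D.As.CD.Pt
end Vale.Agent.P022D.As.CD.Pt
namespace Vale.Agent.P022E.As.CD.Pt
end Vale.Agent.P022E.As.CD.Pt
namespace Vale.Agent.P022D.As.Cmp
end Vale.Agent.P022D.As.Cmp
namespace Vale.Agent.P022E.As.Cmp
end Vale.Agent.P022E.As.Cmp
namespace Vale.Agent.P022D.As.CovAux
end Vale.Agent.P022D.As.CovAux
namespace Vale.Agent.P022E.As.CovAux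
end Vale.Agent.P022E.As.CovAux
namespace Vale.Agent.P022D.As.Ct
end Vale.Agent.P022D.As.Ct
namespace Vale.Agent.P022E.As.Ct
end Vale.Agent.P022E.As.Ct
namespace Vale.Agent.P022D.As.DG
end Vale.Agent.P022D.As.DG
namespace Vale.Agent.P022E.As.DG
end Vale.Agent.P022E.As.DG
namespace Vale.Agent.P022D.As.Dia
end Vale.Agent.P022D.As.Dia
namespace Vale.Agent.P022E.As.Dia
end Vale.Agent.P022E.As.Dia
namespace Vale.Agent.P022D.As.Dir
end Vale.Agent.P022D.As.Dir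
namespace Vale.Agent.P022E.As.Dir
end Vale.Agent.P022E.As.Dir
namespace Vale.Agent.P022D.As.EA
end Vale.Agent.P022D.As.EA
namespace Vale.Agent.P022E.As.EA
end Vale.Agent.P022E.As.EA
namespace Vale.Agent.P022D.As.EB
end Vale.Agent.P022D.As.EB
namespace Vale.Agent.P022E.As.EB
end Vale.Agent.P022E.As.EB
namespace Vale.Agent.P022D.As.Fx
end Vale.Agent.P022D.As.Fx
namespace Vale.Agent.P022E.As.Fx
end Vale.Agent.P022E.As.Fx
namespace Vale.Agent.P022D.As.Gp0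
end Vale.Agent.P022D.As.Gp0
namespace Vale.Agent.P022E.As.Gp0
end Vale.Agent.P022E.As.Gp0
namespace Vale.Agent.P022D.As.Gv
end Vale.Agent.P022D.As.Gv
namespace Vale.Agent.P022E.As.Gv
end Vale.Agent.P022E.As.Gv
namespace Vale.Agent.P022D.As.Gw
end Vale.Agent.P022D.As.Gw
namespace Vale.Agent.P022E.As.Gw
end Vale.Agent.P022E.As.Gw
namespace Vale.Agent.P022D.As.HD
end Vale.Agent.P022D.As.HD
namespace Vale.Agent.P022E.As.HD
end Vale.Agent.P022E.As.HD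
namespace Vale.Agent.P022D.As.HD2
end Vale.Agent.P022D.As.HD2
namespace Vale.Agent.P022E.As.HD2
end Vale.Agent.P022E.As.HD2
namespace Vale.Agent.P022D.As.Hk
end Vale.Agent.P022D.As.Hk
namespace Vale.Agent.P022E.As.Hk
end Vale.Agent.P022E.As.Hk
namespace Vale.Agent.P022D.As.Lf
end Vale.Agent.P022D.As.Lf
namespace Vale.Agent.P022E.As.Lf
end Vale.Agent.P022E.As.Lf
namespace Vale.Agent.P022D.As.Lt
end Vale.Agent.P022D.As.Lt
namespace Vale.Agent.P022E.As.Lt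
end Vale.Agent.P022E.As.Lt
namespace Vale.Agent.P022D.As.Lv1
end Vale.Agent.P022D.As.Lv1
namespace Vale.Agent.P022E.As.Lv1
end Vale.Agent.P022E.As.Lv1
namespace Vale.Agent.P022D.As.Lv2
end Vale.Agent.P022D.As.Lv2
namespace Vale.Agent.P022E.As.Lv2
end Vale.Agent.P022E.As.Lv2
namespace Vale.Agent.P022D.As.PtO
end Vale.Agent.P022D.As.PtO
namespace Vale.Agent.P022E.As.PtO
end Vale.Agent.P022E.As.PtO
namespace Vale.Agent.P022D.As.Sm
end Vale.Agent.P022D.As.Sm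
namespace Vale.Agent.P022E.As.Sm
end Vale.Agent.P022E.As.Sm
namespace Vale.Agent.P022D.As.Tf
end Vale.Agent.P022D.As.Tf
namespace Vale.Agent.P022E.As.Tf
end Vale.Agent.P022E.As.Tf
namespace Vale.Agent.P022D.As.Tw
end Vale.Agent.P022D.As.Tw
namespace Vale.Agent.P022E.As.Tw
end Vale.Agent.P022E.As.Tw
namespace Vale.Agent.P022D.CA.Cpl
end Vale.Agent.P022D.CA.Cpl
namespace Vale.Agent.P022E.CA.Cpl
end Vale.Agent.P022E.CA.Cpl
namespace Vale.Agent.P022D.CA.IsZ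
end Vale.Agent.P022D.CA.IsZ
namespace Vale.Agent.P022E.CA.IsZ
end Vale.Agent.P022E.CA.IsZ
namespace Vale.Agent.P022D.Core.CD.Pt
end Vale.Agent.P022D.Core.CD.Pt
namespace Vale.Agent.P022E.Core.CD.Pt
end Vale.Agent.P022E.Core.CD.Pt
namespace Vale.Agent.P022D.Core.Coef
end Vale.Agent.P022D.Core.Coef
namespace Vale.Agent.P022E.Core.Coef
end Vale.Agent.P022E.Core.Coef
namespace Vale.Agent.P022D.Core.GD
end Vale.Agent.P022D.Core.GD
namespace Vale.Agent.P022E.Core.GD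
end Vale.Agent.P022E.Core.GD
namespace Vale.Agent.P022D.Core.HD
end Vale.Agent.P022D.Core.HD
namespace Vale.Agent.P022E.Core.HD
end Vale.Agent.P022E.Core.HD
namespace Vale.Agent.P022D.Core.LOCH
end Vale.Agent.P022D.Core.LOCH
namespace Vale.Agent.P022E.Core.LOCH
end Vale.Agent.P022E.Core.LOCH
namespace Vale.Agent.P022D.Core.PD
end Vale.Agent.P022D.Core.PD
namespace Vale.Agent.P022E.Core.PD
end Vale.Agent.P022E.Core.PD
namespace Vale.Agent.P022D.Dh.Alg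
end Vale.Agent.P022D.Dh.Alg
namespace Vale.Agent.P022E.Dh.Alg
end Vale.Agent.P022E.Dh.Alg
namespace Vale.Agent.P022D.Dh.Cft.Rl
end Vale.Agent.P022D.Dh.Cft.Rl
namespace Vale.Agent.P022E.Dh.Cft.Rl
end Vale.Agent.P022E.Dh.Cft.Rl
namespace Vale.Agent.P022D.Dh.Cy
end Vale.Agent.P022D.Dh.Cy
namespace Vale.Agent.P022E.Dh.Cy
end Vale.Agent.P022E.Dh.Cy
namespace Vale.Agent.P022D.Dh.Mt
end Vale.Agent.P022D.Dh.Mt
namespace Vale.Agent.P022E.Dh.Mt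
end Vale.Agent.P022E.Dh.Mt
namespace Vale.Agent.P022D.Dh.Nd
end Vale.Agent.P022D.Dh.Nd
namespace Vale.Agent.P022E.Dh.Nd
end Vale.Agent.P022E.Dh.Nd
namespace Vale.Agent.P022D.Dk.Mono
end Vale.Agent.P022D.Dk.Mono
namespace Vale.Agent.P022E.Dk.Mono
end Vale.Agent.P022E.Dk.Mono
namespace Vale.Agent.P022D.Dk.TrD
end Vale.Agent.P022D.Dk.TrD
namespace Vale.Agent.P022E.Dk.TrD
end Vale.Agent.P022E.Dk.TrD
namespace Vale.Agent.P022D.Du
end Vale.Agent.P022D.Du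
namespace Vale.Agent.P022E.Du
end Vale.Agent.P022E.Du
namespace Vale.Agent.P022D.End.KW2
end Vale.Agent.P022D.End.KW2
namespace Vale.Agent.P022E.End.KW2
end Vale.Agent.P022E.End.KW2
namespace Vale.Agent.P022D.Fm.Ac.Lk
end Vale.Agent.P022D.Fm.Ac.Lk
namespace Vale.Agent.P022E.Fm.Ac.Lk
end Vale.Agent.P022E.Fm.Ac.Lk
namespace Vale.Agent.P022D.Fm.Aux
end Vale.Agent.P022D.Fm.Aux
namespace Vale.Agent.P022E.Fm.Aux
end Vale.Agent.P022E.Fm.Aux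
namespace Vale.Agent.P022D.Fm.Away
end Vale.Agent.P022D.Fm.Away
namespace Vale.Agent.P022E.Fm.Away
end Vale.Agent.P022E.Fm.Away
namespace Vale.Agent.P022D.Fm.BT
end Vale.Agent.P022D.Fm.BT
namespace Vale.Agent.P022E.Fm.BT
end Vale.Agent.P022E.Fm.BT
namespace Vale.Agent.P022D.Fm.Bg
end Vale.Agent.P022D.Fm.Bg
namespace Vale.Agent.P022E.Fm.Bg
end Vale.Agent.P022E.Fm.Bg
namespace Vale.Agent.P022D.Fm.Cen
end Vale.Agent.P022D.Fm.Cen
namespace Vale.Agent.P022E.Fm.Cen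
end Vale.Agent.P022E.Fm.Cen
namespace Vale.Agent.P022D.Fm.ChR
end Vale.Agent.P022D.Fm.ChR
namespace Vale.Agent.P022E.Fm.ChR
end Vale.Agent.P022E.Fm.ChR
namespace Vale.Agent.P022D.Fm.Cls
end Vale.Agent.P022D.Fm.Cls
namespace Vale.Agent.P022E.Fm.Cls
end Vale.Agent.P022E.Fm.Cls
namespace Vale.Agent.P022D.Fm.Cr
end Vale.Agent.P022D.Fm.Cr
namespace Vale.Agent.P022E.Fm.Cr
end Vale.Agent.P022E.Fm.Cr
namespace Vale.Agent.P022D.Fm.Di
end Vale.Agent.P022D.Fm.Di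
namespace Vale.Agent.P022E.Fm.Di
end Vale.Agent.P022E.Fm.Di
namespace Vale.Agent.P022D.Fm.Dic
end Vale.Agent.P022D.Fm.Dic
namespace Vale.Agent.P022E.Fm.Dic
end Vale.Agent.P022E.Fm.Dic
namespace Vale.Agent.P022D.Fm.Dm
end Vale.Agent.P022D.Fm.Dm
namespace Vale.Agent.P022E.Fm.Dm
end Vale.Agent.P022E.Fm.Dm
namespace Vale.Agent.P022D.Fm.Dt.Ok
end Vale.Agent.P022D.Fm.Dt.Ok
namespace Vale.Agent.P022E.Fm.Dt.Ok
end Vale.Agent.P022E.Fm.Dt.Ok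
namespace Vale.Agent.P022D.Fm.Fb
end Vale.Agent.P022D.Fm.Fb
namespace Vale.Agent.P022E.Fm.Fb
end Vale.Agent.P022E.Fm.Fb
namespace Vale.Agent.P022D.Fm.Gmr
end Vale.Agent.P022D.Fm.Gmr
namespace Vale.Agent.P022E.Fm.Gmr
end Vale.Agent.P022E.Fm.Gmr
namespace Vale.Agent.P022D.Fm.H66
end Vale.Agent.P022D.Fm.H66
namespace Vale.Agent.P022E.Fm.H66
end Vale.Agent.P022E.Fm.H66
namespace Vale.Agent.P022D.Fm.Hz
end Vale.Agent.P022D.Fm.Hz
namespace Vale.Agent.P022E.Fm.Hz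
end Vale.Agent.P022E.Fm.Hz
namespace Vale.Agent.P022D.Fm.Lam
end Vale.Agent.P022D.Fm.Lam
namespace Vale.Agent.P022E.Fm.Lam
end Vale.Agent.P022E.Fm.Lam
namespace Vale.Agent.P022D.Fm.Lc
end Vale.Agent.P022D.Fm.Lc
namespace Vale.Agent.P022E.Fm.Lc
end Vale.Agent.P022E.Fm.Lc
namespace Vale.Agent.P022D.Fm.Lq
end Vale.Agent.P022D.Fm.Lq
namespace Vale.Agent.P022E.Fm.Lq
end Vale.Agent.P022E.Fm.Lq
namespace Vale.Agent.P022D.Fm.Lv
end Vale.Agent.P022D.Fm.Lv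
namespace Vale.Agent.P022E.Fm.Lv
end Vale.Agent.P022E.Fm.Lv
namespace Vale.Agent.P022D.Fm.N6.Ch
end Vale.Agent.P022D.Fm.N6.Ch
namespace Vale.Agent.P022E.Fm.N6.Ch
end Vale.Agent.P022E.Fm.N6.Ch
namespace Vale.Agent.P022D.Fm.Nm
end Vale.Agent.P022D.Fm.Nm
namespace Vale.Agent.P022E.Fm.Nm
end Vale.Agent.P022E.Fm.Nm
namespace Vale.Agent.P022D.Fm.Nz
end Vale.Agent.P022D.Fm.Nz
namespace Vale.Agent.P022E.Fm.Nz
end Vale.Agent.P022E.Fm.Nz
namespace Vale.Agent.P022D.Fm.OpP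
end Vale.Agent.P022D.Fm.OpP
namespace Vale.Agent.P022E.Fm.OpP
end Vale.Agent.P022E.Fm.OpP
namespace Vale.Agent.P022D.Fm.Out
end Vale.Agent.P022D.Fm.Out
namespace Vale.Agent.P022E.Fm.Out
end Vale.Agent.P022E.Fm.Out
namespace Vale.Agent.P022D.Fm.Pj.Dp
end Vale.Agent.P022D.Fm.Pj.Dp
namespace Vale.Agent.P022E.Fm.Pj.Dp
end Vale.Agent.P022E.Fm.Pj.Dp
namespace Vale.Agent.P022D.Fm.Pj.Ni
end Vale.Agent.P022D.Fm.Pj.Ni
namespace Vale.Agent.P022E.Fm.Pj.Ni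
end Vale.Agent.P022E.Fm.Pj.Ni
namespace Vale.Agent.P022D.Fm.Pw
end Vale.Agent.P022D.Fm.Pw
namespace Vale.Agent.P022E.Fm.Pw
end Vale.Agent.P022E.Fm.Pw
namespace Vale.Agent.P022D.Fm.Qi
end Vale.Agent.P022D.Fm.Qi
namespace Vale.Agent.P022E.Fm.Qi
end Vale.Agent.P022E.Fm.Qi
namespace Vale.Agent.P022D.Fm.Red
end Vale.Agent.P022D.Fm.Red
namespace Vale.Agent.P022E.Fm.Red
end Vale.Agent.P022E.Fm.Red
namespace Vale.Agent.P022D.Fm.Rp
end Vale.Agent.P022D.Fm.Rp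
namespace Vale.Agent.P022E.Fm.Rp
end Vale.Agent.P022E.Fm.Rp
namespace Vale.Agent.P022D.Fm.Rw
end Vale.Agent.P022D.Fm.Rw
namespace Vale.Agent.P022E.Fm.Rw
end Vale.Agent.P022E.Fm.Rw
namespace Vale.Agent.P022D.Fm.Rz
end Vale.Agent.P022D.Fm.Rz
namespace Vale.Agent.P022E.Fm.Rz
end Vale.Agent.P022E.Fm.Rz
namespace Vale.Agent.P022D.Fm.Sb
end Vale.Agent.P022D.Fm.Sb
namespace Vale.Agent.P022E.Fm.Sb
end Vale.Agent.P022E.Fm.Sb
namespace Vale.Agent.P022D.Fm.Sd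
end Vale.Agent.P022D.Fm.Sd
namespace Vale.Agent.P022E.Fm.Sd
end Vale.Agent.P022E.Fm.Sd
namespace Vale.Agent.P022D.Fm.Sk
end Vale.Agent.P022D.Fm.Sk
namespace Vale.Agent.P022E.Fm.Sk
end Vale.Agent.P022E.Fm.Sk
namespace Vale.Agent.P022D.Fm.Stb
end Vale.Agent.P022D.Fm.Stb
namespace Vale.Agent.P022E.Fm.Stb
end Vale.Agent.P022E.Fm.Stb
namespace Vale.Agent.P022D.Fm.Su.Gq
end Vale.Agent.P022D.Fm.Su.Gq
namespace Vale.Agent.P022E.Fm.Su.Gq
end Vale.Agent.P022E.Fm.Su.Gq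
namespace Vale.Agent.P022D.Fm.Su.Hc
end Vale.Agent.P022D.Fm.Su.Hc
namespace Vale.Agent.P022E.Fm.Su.Hc
end Vale.Agent.P022E.Fm.Su.Hc
namespace Vale.Agent.P022D.Fm.Su.IsU
end Vale.Agent.P022D.Fm.Su.IsU
namespace Vale.Agent.P022E.Fm.Su.IsU
end Vale.Agent.P022E.Fm.Su.IsU
namespace Vale.Agent.P022D.Fm.Su.Lm
end Vale.Agent.P022D.Fm.Su.Lm
namespace Vale.Agent.P022E.Fm.Su.Lm
end Vale.Agent.P022E.Fm.Su.Lm
namespace Vale.Agent.P022D.Fm.Su.Ok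
end Vale.Agent.P022D.Fm.Su.Ok
namespace Vale.Agent.P022E.Fm.Su.Ok
end Vale.Agent.P022E.Fm.Su.Ok
namespace Vale.Agent.P022D.Fm.Su.Op
end Vale.Agent.P022D.Fm.Su.Op
namespace Vale.Agent.P022E.Fm.Su.Op
end Vale.Agent.P022E.Fm.Su.Op
namespace Vale.Agent.P022D.Fm.Sy
end Vale.Agent.P022D.Fm.Sy
namespace Vale.Agent.P022E.Fm.Sy
end Vale.Agent.P022E.Fm.Sy
namespace Vale.Agent.P022D.Fm.Vr
end Vale.Agent.P022D.Fm.Vr
namespace Vale.Agent.P022E.Fm.Vr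
end Vale.Agent.P022E.Fm.Vr
namespace Vale.Agent.P022D.G.AL1
end Vale.Agent.P022D.G.AL1
namespace Vale.Agent.P022E.G.AL1
end Vale.Agent.P022E.G.AL1
namespace Vale.Agent.P022D.G.Cls
end Vale.Agent.P022D.G.Cls
namespace Vale.Agent.P022E.G.Cls
end Vale.Agent.P022E.G.Cls
namespace Vale.Agent.P022D.G.Core
end Vale.Agent.P022D.G.Core
namespace Vale.Agent.P022E.G.Core
end Vale.Agent.P022E.G.Core
namespace Vale.Agent.P022D.G.Dsc
end Vale.Agent.P022D.G.Dsc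
namespace Vale.Agent.P022E.G.Dsc
end Vale.Agent.P022E.G.Dsc
namespace Vale.Agent.P022D.G.FormH
end Vale.Agent.P022D.G.FormH
namespace Vale.Agent.P022E.G.FormH
end Vale.Agent.P022E.G.FormH
namespace Vale.Agent.P022D.G.Fq
end Vale.Agent.P022D.G.Fq
namespace Vale.Agent.P022E.G.Fq
end Vale.Agent.P022E.G.Fq
namespace Vale.Agent.P022D.G.Frob
end Vale.Agent.P022D.G.Frob
namespace Vale.Agent.P022E.G.Frob
end Vale.Agent.P022E.G.Frob
namespace Vale.Agent.P022D.G.I1g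
end Vale.Agent.P022D.G.I1g
namespace Vale.Agent.P022E.G.I1g
end Vale.Agent.P022E.G.I1g
namespace Vale.Agent.P022D.G.KeyN
end Vale.Agent.P022D.G.KeyN
namespace Vale.Agent.P022E.G.KeyN
end Vale.Agent.P022E.G.KeyN
namespace Vale.Agent.P022D.G.LatP
end Vale.Agent.P022D.G.LatP
namespace Vale.Agent.P022E.G.LatP
end Vale.Agent.P022E.G.LatP
namespace Vale.Agent.P022D.G.Law
end Vale.Agent.P022D.G.Law
namespace Vale.Agent.P022E.G.Law
end Vale.Agent.P022E.G.Law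
namespace Vale.Agent.P022D.G.Lk
end Vale.Agent.P022D.G.Lk
namespace Vale.Agent.P022E.G.Lk
end Vale.Agent.P022E.G.Lk
namespace Vale.Agent.P022D.G.NilAux.Good
end Vale.Agent.P022D.G.NilAux.Good
namespace Vale.Agent.P022E.G.NilAux.Good
end Vale.Agent.P022E.G.NilAux.Good
namespace Vale.Agent.P022D.G.PS
end Vale.Agent.P022D.G.PS
namespace Vale.Agent.P022E.G.PS
end Vale.Agent.P022E.G.PS
namespace Vale.Agent.P022D.G.PS0
end Vale.Agent.P022D.G.PS0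
namespace Vale.Agent.P022E.G.PS0
end Vale.Agent.P022E.G.PS0
namespace Vale.Agent.P022D.G.RepUA
end Vale.Agent.P022D.G.RepUA
namespace Vale.Agent.P022E.G.RepUA
end Vale.Agent.P022E.G.RepUA
namespace Vale.Agent.P022D.G.Rl
end Vale.Agent.P022D.G.Rl
namespace Vale.Agent.P022E.G.Rl
end Vale.Agent.P022E.G.Rl
namespace Vale.Agent.P022D.G.SubA
end Vale.Agent.P022D.G.SubA
namespace Vale.Agent.P022E.G.SubA
end Vale.Agent.P022E.G.SubA
namespace Vale.Agent.P022D.G.Sy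
end Vale.Agent.P022D.G.Sy
namespace Vale.Agent.P022E.G.Sy
end Vale.Agent.P022E.G.Sy
namespace Vale.Agent.P022D.Gma.CH
end Vale.Agent.P022D.Gma.CH
namespace Vale.Agent.P022E.Gma.CH
end Vale.Agent.P022E.Gma.CH
namespace Vale.Agent.P022D.Good.Cont
end Vale.Agent.P022D.Good.Cont
namespace Vale.Agent.P022E.Good.Cont
end Vale.Agent.P022E.Good.Cont
namespace Vale.Agent.P022D.Good.Dat
end Vale.Agent.P022D.Good.Dat
namespace Vale.Agent.P022E.Good.Dat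
end Vale.Agent.P022E.Good.Dat
namespace Vale.Agent.P022D.Gt.Ga
end Vale.Agent.P022D.Gt.Ga
namespace Vale.Agent.P022E.Gt.Ga
end Vale.Agent.P022E.Gt.Ga
namespace Vale.Agent.P022D.Gt.Lv
end Vale.Agent.P022D.Gt.Lv
namespace Vale.Agent.P022E.Gt.Lv
end Vale.Agent.P022E.Gt.Lv
namespace Vale.Agent.P022D.I12
end Vale.Agent.P022D.I12
namespace Vale.Agent.P022E.I12
end Vale.Agent.P022E.I12
namespace Vale.Agent.P022D.Irr.Dat
end Vale.Agent.P022D.Irr.Dat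
namespace Vale.Agent.P022E.Irr.Dat
end Vale.Agent.P022E.Irr.Dat
namespace Vale.Agent.P022D.Irr.Rat
end Vale.Agent.P022D.Irr.Rat
namespace Vale.Agent.P022E.Irr.Rat
end Vale.Agent.P022E.Irr.Rat
namespace Vale.Agent.P022D.Jac
end Vale.Agent.P022D.Jac
namespace Vale.Agent.P022E.Jac
end Vale.Agent.P022E.Jac
namespace Vale.Agent.P022D.L2.Ar.Ku
end Vale.Agent.P022D.L2.Ar.Ku
namespace Vale.Agent.P022E.L2.Ar.Ku
end Vale.Agent.P022E.L2.Ar.Ku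
namespace Vale.Agent.P022D.L2.Ev
end Vale.Agent.P022D.L2.Ev
namespace Vale.Agent.P022E.L2.Ev
end Vale.Agent.P022E.L2.Ev
namespace Vale.Agent.P022D.L2.Fox
end Vale.Agent.P022D.L2.Fox
namespace Vale.Agent.P022E.L2.Fox
end Vale.Agent.P022E.L2.Fox
namespace Vale.Agent.P022D.L2.Loc2
end Vale.Agent.P022D.L2.Loc2
namespace Vale.Agent.P022E.L2.Loc2
end Vale.Agent.P022E.L2.Loc2
namespace Vale.Agent.P022D.L2.Pt
end Vale.Agent.P022D.L2.Pt
namespace Vale.Agent.P022E.L2.Pt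
end Vale.Agent.P022E.L2.Pt
namespace Vale.Agent.P022D.L2.Rel
end Vale.Agent.P022D.L2.Rel
namespace Vale.Agent.P022E.L2.Rel
end Vale.Agent.P022E.L2.Rel
namespace Vale.Agent.P022D.L2.RelP.Ok
end Vale.Agent.P022D.L2.RelP.Ok
namespace Vale.Agent.P022E.L2.RelP.Ok
end Vale.Agent.P022E.L2.RelP.Ok
namespace Vale.Agent.P022D.L2.Sng.InL
end Vale.Agent.P022D.L2.Sng.InL
namespace Vale.Agent.P022E.L2.Sng.InL
end Vale.Agent.P022E.L2.Sng.InL
namespace Vale.Agent.P022D.L2.Sng.ML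
end Vale.Agent.P022D.L2.Sng.ML
namespace Vale.Agent.P022E.L2.Sng.ML
end Vale.Agent.P022E.L2.Sng.ML
namespace Vale.Agent.P022D.L2b.B.Oi
end Vale.Agent.P022D.L2b.B.Oi
namespace Vale.Agent.P022E.L2b.B.Oi
end Vale.Agent.P022E.L2b.B.Oi
namespace Vale.Agent.P022D.L2b.Lift
end Vale.Agent.P022D.L2b.Lift
namespace Vale.Agent.P022E.L2b.Lift
end Vale.Agent.P022E.L2b.Lift
namespace Vale.Agent.P022D.L2b.T4
end Vale.Agent.P022D.L2b.T4
namespace Vale.Agent.P022E.L2b.T4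
end Vale.Agent.P022E.L2b.T4
namespace Vale.Agent.P022D.L2b.Z1
end Vale.Agent.P022D.L2b.Z1
namespace Vale.Agent.P022E.L2b.Z1
end Vale.Agent.P022E.L2b.Z1
namespace Vale.Agent.P022D.L2c.Dih
end Vale.Agent.P022D.L2c.Dih
namespace Vale.Agent.P022E.L2c.Dih
end Vale.Agent.P022E.L2c.Dih
namespace Vale.Agent.P022D.L2c.Dih0
end Vale.Agent.P022D.L2c.Dih0
namespace Vale.Agent.P022E.L2c.Dih0
end Vale.Agent.P022E.L2c.Dih0
namespace Vale.Agent.P022D.L2c.DihH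
end Vale.Agent.P022D.L2c.DihH
namespace Vale.Agent.P022E.L2c.DihH
end Vale.Agent.P022E.L2c.DihH
namespace Vale.Agent.P022D.L2c.Eta
end Vale.Agent.P022D.L2c.Eta
namespace Vale.Agent.P022E.L2c.Eta
end Vale.Agent.P022E.L2c.Eta
namespace Vale.Agent.P022D.L2c.Glue
end Vale.Agent.P022D.L2c.Glue
namespace Vale.Agent.P022E.L2c.Glue
end Vale.Agent.P022E.L2c.Glue
namespace Vale.Agent.P022D.L2c.Hq
end Vale.Agent.P022D.L2c.Hq
namespace Vale.Agent.P022E.L2c.Hq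
end Vale.Agent.P022E.L2c.Hq
namespace Vale.Agent.P022D.L2c.Intg
end Vale.Agent.P022D.L2c.Intg
namespace Vale.Agent.P022E.L2c.Intg
end Vale.Agent.P022E.L2c.Intg
namespace Vale.Agent.P022D.L2c.Kum
end Vale.Agent.P022D.L2c.Kum
namespace Vale.Agent.P022E.L2c.Kum
end Vale.Agent.P022E.L2c.Kum
namespace Vale.Agent.P022D.L2c.L1
end Vale.Agent.P022D.L2c.L1
namespace Vale.Agent.P022E.L2c.L1
end Vale.Agent.P022E.L2c.L1
namespace Vale.Agent.P022D.L2c.Lift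
end Vale.Agent.P022D.L2c.Lift
namespace Vale.Agent.P022E.L2c.Lift
end Vale.Agent.P022E.L2c.Lift
namespace Vale.Agent.P022D.L2c.Locu2
end Vale.Agent.P022D.L2c.Locu2
namespace Vale.Agent.P022E.L2c.Locu2
end Vale.Agent.P022E.L2c.Locu2
namespace Vale.Agent.P022D.L2c.Locu3
end Vale.Agent.P022D.L2c.Locu3
namespace Vale.Agent.P022E.L2c.Locu3
end Vale.Agent.P022E.L2c.Locu3
namespace Vale.Agent.P022D.L2c.Nir
end Vale.Agent.P022D.L2c.Nir
namespace Vale.Agent.P022E.L2c.Nir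
end Vale.Agent.P022E.L2c.Nir
namespace Vale.Agent.P022D.L2c.Odd
end Vale.Agent.P022D.L2c.Odd
namespace Vale.Agent.P022E.L2c.Odd
end Vale.Agent.P022E.L2c.Odd
namespace Vale.Agent.P022D.L2c.Out
end Vale.Agent.P022D.L2c.Out
namespace Vale.Agent.P022E.L2c.Out
end Vale.Agent.P022E.L2c.Out
namespace Vale.Agent.P022D.L2c.PolP.BB
end Vale.Agent.P022D.L2c.PolP.BB
namespace Vale.Agent.P022E.L2c.PolP.BB
end Vale.Agent.P022E.L2c.PolP.BB
namespace Vale.Agent.P022D.L2c.Pt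
end Vale.Agent.P022D.L2c.Pt
namespace Vale.Agent.P022E.L2c.Pt
end Vale.Agent.P022E.L2c.Pt
namespace Vale.Agent.P022D.L2c.Sym
end Vale.Agent.P022D.L2c.Sym
namespace Vale.Agent.P022E.L2c.Sym
end Vale.Agent.P022E.L2c.Sym
namespace Vale.Agent.P022D.Loc.B2
end Vale.Agent.P022D.Loc.B2
namespace Vale.Agent.P022E.Loc.B2
end Vale.Agent.P022E.Loc.B2
namespace Vale.Agent.P022D.Loc.BCA
end Vale.Agent.P022D.Loc.BCA
namespace Vale.Agent.P022E.Loc.BCA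
end Vale.Agent.P022E.Loc.BCA
namespace Vale.Agent.P022D.Loc.Cb.Gr
end Vale.Agent.P022D.Loc.Cb.Gr
namespace Vale.Agent.P022E.Loc.Cb.Gr
end Vale.Agent.P022E.Loc.Cb.Gr
namespace Vale.Agent.P022D.Loc.Cnd
end Vale.Agent.P022D.Loc.Cnd
namespace Vale.Agent.P022E.Loc.Cnd
end Vale.Agent.P022E.Loc.Cnd
namespace Vale.Agent.P022D.Loc.Cw.Gr
end Vale.Agent.P022D.Loc.Cw.Gr
namespace Vale.Agent.P022E.Loc.Cw.Gr
end Vale.Agent.P022E.Loc.Cw.Gr
namespace Vale.Agent.P022D.Loc.Expl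
end Vale.Agent.P022D.Loc.Expl
namespace Vale.Agent.P022E.Loc.Expl
end Vale.Agent.P022E.Loc.Expl
namespace Vale.Agent.P022D.Loc.GlueP
end Vale.Agent.P022D.Loc.GlueP
namespace Vale.Agent.P022E.Loc.GlueP
end Vale.Agent.P022E.Loc.GlueP
namespace Vale.Agent.P022D.Loc.Kil
end Vale.Agent.P022D.Loc.Kil
namespace Vale.Agent.P022E.Loc.Kil
end Vale.Agent.P022E.Loc.Kil
namespace Vale.Agent.P022D.Loc.Obj
end Vale.Agent.P022D.Loc.Obj
namespace Vale.Agent.P022E.Loc.Obj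
end Vale.Agent.P022E.Loc.Obj
namespace Vale.Agent.P022D.Loc.Pl.Ok
end Vale.Agent.P022D.Loc.Pl.Ok
namespace Vale.Agent.P022E.Loc.Pl.Ok
end Vale.Agent.P022E.Loc.Pl.Ok
namespace Vale.Agent.P022D.Loc.Std
end Vale.Agent.P022D.Loc.Std
namespace Vale.Agent.P022E.Loc.Std
end Vale.Agent.P022E.Loc.Std
namespace Vale.Agent.P022D.Loc.Sy.Gv
end Vale.Agent.P022D.Loc.Sy.Gv
namespace Vale.Agent.P022E.Loc.Sy.Gv
end Vale.Agent.P022E.Loc.Sy.Gv
namespace Vale.Agent.P022D.Loc.Tm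
end Vale.Agent.P022D.Loc.Tm
namespace Vale.Agent.P022E.Loc.Tm
end Vale.Agent.P022E.Loc.Tm
namespace Vale.Agent.P022D.Loc.Tst
end Vale.Agent.P022D.Loc.Tst
namespace Vale.Agent.P022E.Loc.Tst
end Vale.Agent.P022E.Loc.Tst
namespace Vale.Agent.P022D.Loc.WRel
end Vale.Agent.P022D.Loc.WRel
namespace Vale.Agent.P022E.Loc.WRel
end Vale.Agent.P022E.Loc.WRel
namespace Vale.Agent.P022D.Loc.Wc
end Vale.Agent.P022D.Loc.Wc
namespace Vale.Agent.P022E.Loc.Wc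
end Vale.Agent.P022E.Loc.Wc
namespace Vale.Agent.P022D.Loc2.GoodBlk
end Vale.Agent.P022D.Loc2.GoodBlk
namespace Vale.Agent.P022E.Loc2.GoodBlk
end Vale.Agent.P022E.Loc2.GoodBlk
namespace Vale.Agent.P022D.Loc2.IsZc
end Vale.Agent.P022D.Loc2.IsZc
namespace Vale.Agent.P022E.Loc2.IsZc
end Vale.Agent.P022E.Loc2.IsZc
namespace Vale.Agent.P022D.NR.Der
end Vale.Agent.P022D.NR.Der
namespace Vale.Agent.P022E.NR.Der
end Vale.Agent.P022E.NR.Der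
namespace Vale.Agent.P022D.Nw.Cm
end Vale.Agent.P022D.Nw.Cm
namespace Vale.Agent.P022E.Nw.Cm
end Vale.Agent.P022E.Nw.Cm
namespace Vale.Agent.P022D.Nw.Gv
end Vale.Agent.P022D.Nw.Gv
namespace Vale.Agent.P022E.Nw.Gv
end Vale.Agent.P022E.Nw.Gv
namespace Vale.Agent.P022D.Nw.Su
end Vale.Agent.P022D.Nw.Su
namespace Vale.Agent.P022E.Nw.Su
end Vale.Agent.P022E.Nw.Su
namespace Vale.Agent.P022D.PA.Base
end Vale.Agent.P022D.PA.Base
namespace Vale.Agent.P022E.PA.Base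
end Vale.Agent.P022E.PA.Base
namespace Vale.Agent.P022D.PA.ChnH
end Vale.Agent.P022D.PA.ChnH
namespace Vale.Agent.P022E.PA.ChnH
end Vale.Agent.P022E.PA.ChnH
namespace Vale.Agent.P022D.PA.ColAux
end Vale.Agent.P022D.PA.ColAux
namespace Vale.Agent.P022E.PA.ColAux
end Vale.Agent.P022E.PA.ColAux
namespace Vale.Agent.P022D.PA.Cov
end Vale.Agent.P022D.PA.Cov
namespace Vale.Agent.P022E.PA.Cov
end Vale.Agent.P022E.PA.Cov
namespace Vale.Agent.P022D.PA.Cv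
end Vale.Agent.P022D.PA.Cv
namespace Vale.Agent.P022E.PA.Cv
end Vale.Agent.P022E.PA.Cv
namespace Vale.Agent.P022D.PA.EtlP
end Vale.Agent.P022D.PA.EtlP
namespace Vale.Agent.P022E.PA.EtlP
end Vale.Agent.P022E.PA.EtlP
namespace Vale.Agent.P022D.PA.Exa
end Vale.Agent.P022D.PA.Exa
namespace Vale.Agent.P022E.PA.Exa
end Vale.Agent.P022E.PA.Exa
namespace Vale.Agent.P022D.PA.Gd
end Vale.Agent.P022D.PA.Gd
namespace Vale.Agent.P022E.PA.Gd
end Vale.Agent.P022E.PA.Gd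
namespace Vale.Agent.P022D.PA.Ti
end Vale.Agent.P022D.PA.Ti
namespace Vale.Agent.P022E.PA.Ti
end Vale.Agent.P022E.PA.Ti
namespace Vale.Agent.P022D.Pdeg
end Vale.Agent.P022D.Pdeg
namespace Vale.Agent.P022E.Pdeg
end Vale.Agent.P022E.Pdeg
namespace Vale.Agent.P022D.Pur.Adm
end Vale.Agent.P022D.Pur.Adm
namespace Vale.Agent.P022E.Pur.Adm
end Vale.Agent.P022E.Pur.Adm
namespace Vale.Agent.P022D.Pur.Amb
end Vale.Agent.P022D.Pur.Amb
namespace Vale.Agent.P022E.Pur.Amb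
end Vale.Agent.P022E.Pur.Amb
namespace Vale.Agent.P022D.Pur.Appr
end Vale.Agent.P022D.Pur.Appr
namespace Vale.Agent.P022E.Pur.Appr
end Vale.Agent.P022E.Pur.Appr
namespace Vale.Agent.P022D.Pur.Cut
end Vale.Agent.P022D.Pur.Cut
namespace Vale.Agent.P022E.Pur.Cut
end Vale.Agent.P022E.Pur.Cut
namespace Vale.Agent.P022D.Pur.FZ
end Vale.Agent.P022D.Pur.FZ
namespace Vale.Agent.P022E.Pur.FZ
end Vale.Agent.P022E.Pur.FZ
namespace Vale.Agent.P022D.Pur.Fx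
end Vale.Agent.P022D.Pur.Fx
namespace Vale.Agent.P022E.Pur.Fx
end Vale.Agent.P022E.Pur.Fx
namespace Vale.Agent.P022D.Pur.Lm
end Vale.Agent.P022D.Pur.Lm
namespace Vale.Agent.P022E.Pur.Lm
end Vale.Agent.P022E.Pur.Lm
namespace Vale.Agent.P022D.Pur.Mon
end Vale.Agent.P022D.Pur.Mon
namespace Vale.Agent.P022E.Pur.Mon
end Vale.Agent.P022E.Pur.Mon
namespace Vale.Agent.P022D.R.Closed
end Vale.Agent.P022D.R.Closed
namespace Vale.Agent.P022E.R.Closed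
end Vale.Agent.P022E.R.Closed
namespace Vale.Agent.P022D.R.Dat
end Vale.Agent.P022D.R.Dat
namespace Vale.Agent.P022E.R.Dat
end Vale.Agent.P022E.R.Dat
namespace Vale.Agent.P022D.R.Gn
end Vale.Agent.P022D.R.Gn
namespace Vale.Agent.P022E.R.Gn
end Vale.Agent.P022E.R.Gn
namespace Vale.Agent.P022D.R.Hom
end Vale.Agent.P022D.R.Hom
namespace Vale.Agent.P022E.R.Hom
end Vale.Agent.P022E.R.Hom
namespace Vale.Agent.P022D.R.IsK
end Vale.Agent.P022D.R.IsK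
namespace Vale.Agent.P022E.R.IsK
end Vale.Agent.P022E.R.IsK
namespace Vale.Agent.P022D.R.Loc
end Vale.Agent.P022D.R.Loc
namespace Vale.Agent.P022E.R.Loc
end Vale.Agent.P022E.R.Loc
namespace Vale.Agent.P022D.R.Obj
end Vale.Agent.P022D.R.Obj
namespace Vale.Agent.P022E.R.Obj
end Vale.Agent.P022E.R.Obj
namespace Vale.Agent.P022D.R.Univ
end Vale.Agent.P022D.R.Univ
namespace Vale.Agent.P022E.R.Univ
end Vale.Agent.P022E.R.Univ
namespace Vale.Agent.P022D.R.Unr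
end Vale.Agent.P022D.R.Unr
namespace Vale.Agent.P022E.R.Unr
end Vale.Agent.P022E.R.Unr
namespace Vale.Agent.P022D.R.Van
end Vale.Agent.P022D.R.Van
namespace Vale.Agent.P022E.R.Van
end Vale.Agent.P022E.R.Van
namespace Vale.Agent.P022D.Rep.Act.Hig
end Vale.Agent.P022D.Rep.Act.Hig
namespace Vale.Agent.P022E.Rep.Act.Hig
end Vale.Agent.P022E.Rep.Act.Hig
namespace Vale.Agent.P022D.Rep.BN
end Vale.Agent.P022D.Rep.BN
namespace Vale.Agent.P022E.Rep.BN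
end Vale.Agent.P022E.Rep.BN
namespace Vale.Agent.P022D.Rep.Ch
end Vale.Agent.P022D.Rep.Ch
namespace Vale.Agent.P022E.Rep.Ch
end Vale.Agent.P022E.Rep.Ch
namespace Vale.Agent.P022D.Rep.InC
end Vale.Agent.P022D.Rep.InC
namespace Vale.Agent.P022E.Rep.InC
end Vale.Agent.P022E.Rep.InC
namespace Vale.Agent.P022D.Rep.IsAdd
end Vale.Agent.P022D.Rep.IsAdd
namespace Vale.Agent.P022E.Rep.IsAdd
end Vale.Agent.P022E.Rep.IsAdd
namespace Vale.Agent.P022D.Rep.MulR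
end Vale.Agent.P022D.Rep.MulR
namespace Vale.Agent.P022E.Rep.MulR
end Vale.Agent.P022E.Rep.MulR
namespace Vale.Agent.P022D.Rep.Ng
end Vale.Agent.P022D.Rep.Ng
namespace Vale.Agent.P022E.Rep.Ng
end Vale.Agent.P022E.Rep.Ng
namespace Vale.Agent.P022D.Rep.Pre
end Vale.Agent.P022D.Rep.Pre
namespace Vale.Agent.P022E.Rep.Pre
end Vale.Agent.P022E.Rep.Pre
namespace Vale.Agent.P022D.Rep.Quo
end Vale.Agent.P022D.Rep.Quo
namespace Vale.Agent.P022E.Rep.Quo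
end Vale.Agent.P022E.Rep.Quo
namespace Vale.Agent.P022D.Rep.Sec
end Vale.Agent.P022D.Rep.Sec
namespace Vale.Agent.P022E.Rep.Sec
end Vale.Agent.P022E.Rep.Sec
namespace Vale.Agent.P022D.Rep.Stp
end Vale.Agent.P022D.Rep.Stp
namespace Vale.Agent.P022E.Rep.Stp
end Vale.Agent.P022E.Rep.Stp
namespace Vale.Agent.P022D.Rep.TX
end Vale.Agent.P022D.Rep.TX
namespace Vale.Agent.P022E.Rep.TX
end Vale.Agent.P022E.Rep.TX
namespace Vale.Agent.P022D.Rep.Wh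
end Vale.Agent.P022D.Rep.Wh
namespace Vale.Agent.P022E.Rep.Wh
end Vale.Agent.P022E.Rep.Wh
namespace Vale.Agent.P022D.Rl.Ch0
end Vale.Agent.P022D.Rl.Ch0
namespace Vale.Agent.P022E.Rl.Ch0
end Vale.Agent.P022E.Rl.Ch0
namespace Vale.Agent.P022D.Rl.Dat.Ok
end Vale.Agent.P022D.Rl.Dat.Ok
namespace Vale.Agent.P022E.Rl.Dat.Ok
end Vale.Agent.P022E.Rl.Dat.Ok
namespace Vale.Agent.P022D.Rl.Tame
end Vale.Agent.P022D.Rl.Tame
namespace Vale.Agent.P022E.Rl.Tame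
end Vale.Agent.P022E.Rl.Tame
namespace Vale.Agent.P022D.Sel.Adm
end Vale.Agent.P022D.Sel.Adm
namespace Vale.Agent.P022E.Sel.Adm
end Vale.Agent.P022E.Sel.Adm
namespace Vale.Agent.P022D.Sel.AdmA
end Vale.Agent.P022D.Sel.AdmA
namespace Vale.Agent.P022E.Sel.AdmA
end Vale.Agent.P022E.Sel.AdmA
namespace Vale.Agent.P022D.Sel.ArtA
end Vale.Agent.P022D.Sel.ArtA
namespace Vale.Agent.P022E.Sel.ArtA
end Vale.Agent.P022E.Sel.ArtA
namespace Vale.Agent.P022D.Sel.AuxP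
end Vale.Agent.P022D.Sel.AuxP
namespace Vale.Agent.P022E.Sel.AuxP
end Vale.Agent.P022E.Sel.AuxP
namespace Vale.Agent.P022D.Sel.Count
end Vale.Agent.P022D.Sel.Count
namespace Vale.Agent.P022E.Sel.Count
end Vale.Agent.P022E.Sel.Count
namespace Vale.Agent.P022D.Sel.Dh
end Vale.Agent.P022D.Sel.Dh
namespace Vale.Agent.P022E.Sel.Dh
end Vale.Agent.P022E.Sel.Dh
namespace Vale.Agent.P022D.Sel.Fix
end Vale.Agent.P022D.Sel.Fix
namespace Vale.Agent.P022E.Sel.Fix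
end Vale.Agent.P022E.Sel.Fix
namespace Vale.Agent.P022D.Sel.FldP
end Vale.Agent.P022D.Sel.FldP
namespace Vale.Agent.P022E.Sel.FldP
end Vale.Agent.P022E.Sel.FldP
namespace Vale.Agent.P022D.Sel.Gd
end Vale.Agent.P022D.Sel.Gd
namespace Vale.Agent.P022E.Sel.Gd
end Vale.Agent.P022E.Sel.Gd
namespace Vale.Agent.P022D.Sel.Inj
end Vale.Agent.P022D.Sel.Inj
namespace Vale.Agent.P022E.Sel.Inj
end Vale.Agent.P022E.Sel.Inj
namespace Vale.Agent.P022D.Sel.IsDec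
end Vale.Agent.P022D.Sel.IsDec
namespace Vale.Agent.P022E.Sel.IsDec
end Vale.Agent.P022E.Sel.IsDec
namespace Vale.Agent.P022D.Sel.KerH
end Vale.Agent.P022D.Sel.KerH
namespace Vale.Agent.P022E.Sel.KerH
end Vale.Agent.P022E.Sel.KerH
namespace Vale.Agent.P022D.Sel.KillAux
end Vale.Agent.P022D.Sel.KillAux
namespace Vale.Agent.P022E.Sel.KillAux
end Vale.Agent.P022E.Sel.KillAux
namespace Vale.Agent.P022D.Sel.Kum
end Vale.Agent.P022D.Sel.Kum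
namespace Vale.Agent.P022E.Sel.Kum
end Vale.Agent.P022E.Sel.Kum
namespace Vale.Agent.P022D.Sel.LawP
end Vale.Agent.P022D.Sel.LawP
namespace Vale.Agent.P022E.Sel.LawP
end Vale.Agent.P022E.Sel.LawP
namespace Vale.Agent.P022D.Sel.OddP
end Vale.Agent.P022D.Sel.OddP
namespace Vale.Agent.P022E.Sel.OddP
end Vale.Agent.P022E.Sel.OddP
namespace Vale.Agent.P022D.Sel.Pl
end Vale.Agent.P022D.Sel.Pl
namespace Vale.Agent.P022E.Sel.Pl
end Vale.Agent.P022E.Sel.Pl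
namespace Vale.Agent.P022D.Sel.Ray
end Vale.Agent.P022D.Sel.Ray
namespace Vale.Agent.P022E.Sel.Ray
end Vale.Agent.P022E.Sel.Ray
namespace Vale.Agent.P022D.Sel.Sym
end Vale.Agent.P022D.Sel.Sym
namespace Vale.Agent.P022E.Sel.Sym
end Vale.Agent.P022E.Sel.Sym
namespace Vale.Agent.P022D.Sel.TanP
end Vale.Agent.P022D.Sel.TanP
namespace Vale.Agent.P022E.Sel.TanP
end Vale.Agent.P022E.Sel.TanP
namespace Vale.Agent.P022D.Sel.Ux
end Vale.Agent.P022D.Sel.Ux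
namespace Vale.Agent.P022E.Sel.Ux
end Vale.Agent.P022E.Sel.Ux
namespace Vale.Agent.P022D.Th.Basq
end Vale.Agent.P022D.Th.Basq
namespace Vale.Agent.P022E.Th.Basq
end Vale.Agent.P022E.Th.Basq
namespace Vale.Agent.P022D.Th.Bdd0
end Vale.Agent.P022D.Th.Bdd0
namespace Vale.Agent.P022E.Th.Bdd0
end Vale.Agent.P022E.Th.Bdd0
namespace Vale.Agent.P022D.Th.Eg
end Vale.Agent.P022D.Th.Eg
namespace Vale.Agent.P022E.Th.Eg
end Vale.Agent.P022E.Th.Eg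
namespace Vale.Agent.P022D.Th.Eigc.Gd
end Vale.Agent.P022D.Th.Eigc.Gd
namespace Vale.Agent.P022E.Th.Eigc.Gd
end Vale.Agent.P022E.Th.Eigc.Gd
namespace Vale.Agent.P022D.Th.Eta.Ps
end Vale.Agent.P022D.Th.Eta.Ps
namespace Vale.Agent.P022E.Th.Eta.Ps
end Vale.Agent.P022E.Th.Eta.Ps
namespace Vale.Agent.P022D.Th.Genq
end Vale.Agent.P022D.Th.Genq
namespace Vale.Agent.P022E.Th.Genq
end Vale.Agent.P022E.Th.Genq
namespace Vale.Agent.P022D.Th.Latc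
end Vale.Agent.P022D.Th.Latc
namespace Vale.Agent.P022E.Th.Latc
end Vale.Agent.P022E.Th.Latc
namespace Vale.Agent.P022D.Th.Lv
end Vale.Agent.P022D.Th.Lv
namespace Vale.Agent.P022E.Th.Lv
end Vale.Agent.P022E.Th.Lv
namespace Vale.Agent.P022D.Th.Pair
end Vale.Agent.P022D.Th.Pair
namespace Vale.Agent.P022E.Th.Pair
end Vale.Agent.P022E.Th.Pair
namespace Vale.Agent.P022D.Th.Sepx
end Vale.Agent.P022D.Th.Sepx
namespace Vale.Agent.P022E.Th.Sepx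
end Vale.Agent.P022E.Th.Sepx
namespace Vale.Agent.P022D.Th.Tei
end Vale.Agent.P022D.Th.Tei
namespace Vale.Agent.P022E.Th.Tei
end Vale.Agent.P022E.Th.Tei
namespace Vale.Agent.P022D.Th.Tup
end Vale.Agent.P022D.Th.Tup
namespace Vale.Agent.P022E.Th.Tup
end Vale.Agent.P022E.Th.Tup
namespace Vale.Agent.P022D.Th.Upos
end Vale.Agent.P022D.Th.Upos
namespace Vale.Agent.P022E.Th.Upos
end Vale.Agent.P022E.Th.Upos
namespace Vale.Agent.P022D.Th.Vec0P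
end Vale.Agent.P022D.Th.Vec0P
namespace Vale.Agent.P022E.Th.Vec0P
end Vale.Agent.P022E.Th.Vec0P
namespace Vale.Agent.P022D.Th.Vec1
end Vale.Agent.P022D.Th.Vec1
namespace Vale.Agent.P022E.Th.Vec1
end Vale.Agent.P022E.Th.Vec1
namespace Vale.Agent.P022D.Th.XB
end Vale.Agent.P022D.Th.XB
namespace Vale.Agent.P022E.Th.XB
end Vale.Agent.P022E.Th.XB
namespace Vale.Agent.P022D.Top.Lev
end Vale.Agent.P022D.Top.Lev
namespace Vale.Agent.P022E.Top.Lev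
end Vale.Agent.P022E.Top.Lev
namespace Vale.Agent.P022D.Top.Su
end Vale.Agent.P022D.Top.Su
namespace Vale.Agent.P022E.Top.Su
end Vale.Agent.P022E.Top.Su
namespace Vale.Agent.P022D.Trc.Fam
end Vale.Agent.P022D.Trc.Fam
namespace Vale.Agent.P022E.Trc.Fam
end Vale.Agent.P022E.Trc.Fam
namespace Vale.Agent.P022D.Trc.Lo
end Vale.Agent.P022D.Trc.Lo
namespace Vale.Agent.P022E.Trc.Lo
end Vale.Agent.P022E.Trc.Lo
namespace Vale.Agent.P022D.Trc.New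
end Vale.Agent.P022D.Trc.New
namespace Vale.Agent.P022E.Trc.New
end Vale.Agent.P022E.Trc.New
namespace Vale.Agent.P022D.Trc.Up
end Vale.Agent.P022D.Trc.Up
namespace Vale.Agent.P022E.Trc.Up
end Vale.Agent.P022E.Trc.Up
namespace Vale.Agent.P022D.Twq.BigP
end Vale.Agent.P022D.Twq.BigP
namespace Vale.Agent.P022E.Twq.BigP
end Vale.Agent.P022E.Twq.BigP
namespace Vale.Agent.P022D.Twq.Good
end Vale.Agent.P022D.Twq.Good
namespace Vale.Agent.P022E.Twq.Good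
end Vale.Agent.P022E.Twq.Good
namespace Vale.Agent.P022D.Twq.Lv
end Vale.Agent.P022D.Twq.Lv
namespace Vale.Agent.P022E.Twq.Lv
end Vale.Agent.P022E.Twq.Lv
namespace Vale.Agent.P022D.Twq.Mn
end Vale.Agent.P022D.Twq.Mn
namespace Vale.Agent.P022E.Twq.Mn
end Vale.Agent.P022E.Twq.Mn
namespace Vale.Agent.P022D.V.All
end Vale.Agent.P022D.V.All
namespace Vale.Agent.P022E.V.All
end Vale.Agent.P022E.V.All
namespace Vale.Agent.P022D.V.Cd.Nt
end Vale.Agent.P022D.V.Cd.Nt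
namespace Vale.Agent.P022E.V.Cd.Nt
end Vale.Agent.P022E.V.Cd.Nt
namespace Vale.Agent.P022D.V.Cj
end Vale.Agent.P022D.V.Cj
namespace Vale.Agent.P022E.V.Cj
end Vale.Agent.P022E.V.Cj
namespace Vale.Agent.P022D.V.Cl.Cg
end Vale.Agent.P022D.V.Cl.Cg
namespace Vale.Agent.P022E.V.Cl.Cg
end Vale.Agent.P022E.V.Cl.Cg
namespace Vale.Agent.P022D.V.Cl.Lv
end Vale.Agent.P022D.V.Cl.Lv
namespace Vale.Agent.P022E.V.Cl.Lv
end Vale.Agent.P022E.V.Cl.Lv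
namespace Vale.Agent.P022D.V.Cl.Rp
end Vale.Agent.P022D.V.Cl.Rp
namespace Vale.Agent.P022E.V.Cl.Rp
end Vale.Agent.P022E.V.Cl.Rp
namespace Vale.Agent.P022D.V.Co
end Vale.Agent.P022D.V.Co
namespace Vale.Agent.P022E.V.Co
end Vale.Agent.P022E.V.Co
namespace Vale.Agent.P022D.V.Cyc.Cg
end Vale.Agent.P022D.V.Cyc.Cg
namespace Vale.Agent.P022E.V.Cyc.Cg
end Vale.Agent.P022E.V.Cyc.Cg
namespace Vale.Agent.P022D.V.Ds
end Vale.Agent.P022D.V.Ds
namespace Vale.Agent.P022E.V.Ds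
end Vale.Agent.P022E.V.Ds
namespace Vale.Agent.P022D.V.Dv.Fm
end Vale.Agent.P022D.V.Dv.Fm
namespace Vale.Agent.P022E.V.Dv.Fm
end Vale.Agent.P022E.V.Dv.Fm
namespace Vale.Agent.P022D.V.Emb
end Vale.Agent.P022D.V.Emb
namespace Vale.Agent.P022E.V.Emb
end Vale.Agent.P022E.V.Emb
namespace Vale.Agent.P022D.V.Gn.Cg
end Vale.Agent.P022D.V.Gn.Cg
namespace Vale.Agent.P022E.V.Gn.Cg
end Vale.Agent.P022E.V.Gn.Cg
namespace Vale.Agent.P022D.V.Gn.Cn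
end Vale.Agent.P022D.V.Gn.Cn
namespace Vale.Agent.P022E.V.Gn.Cn
end Vale.Agent.P022E.V.Gn.Cn
namespace Vale.Agent.P022D.V.Gn.Ng
end Vale.Agent.P022D.V.Gn.Ng
namespace Vale.Agent.P022E.V.Gn.Ng
end Vale.Agent.P022E.V.Gn.Ng
namespace Vale.Agent.P022D.V.GrpP.Dat
end Vale.Agent.P022D.V.GrpP.Dat
namespace Vale.Agent.P022E.V.GrpP.Dat
end Vale.Agent.P022E.V.GrpP.Dat
namespace Vale.Agent.P022D.V.Hk
end Vale.Agent.P022D.V.Hk
namespace Vale.Agent.P022E.V.Hk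
end Vale.Agent.P022E.V.Hk
namespace Vale.Agent.P022D.V.Ih
end Vale.Agent.P022D.V.Ih
namespace Vale.Agent.P022E.V.Ih
end Vale.Agent.P022E.V.Ih
namespace Vale.Agent.P022D.V.IrrV
end Vale.Agent.P022D.V.IrrV
namespace Vale.Agent.P022E.V.IrrV
end Vale.Agent.P022E.V.IrrV
namespace Vale.Agent.P022D.V.IsTp
end Vale.Agent.P022D.V.IsTp
namespace Vale.Agent.P022E.V.IsTp
end Vale.Agent.P022E.V.IsTp
namespace Vale.Agent.P022D.V.Lev
end Vale.Agent.P022D.V.Lev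
namespace Vale.Agent.P022E.V.Lev
end Vale.Agent.P022E.V.Lev
namespace Vale.Agent.P022D.V.PZ
end Vale.Agent.P022D.V.PZ
namespace Vale.Agent.P022E.V.PZ
end Vale.Agent.P022E.V.PZ
namespace Vale.Agent.P022D.V.Rat
end Vale.Agent.P022D.V.Rat
namespace Vale.Agent.P022E.V.Rat
end Vale.Agent.P022E.V.Rat
namespace Vale.Agent.P022D.V.Rel
end Vale.Agent.P022D.V.Rel
namespace Vale.Agent.P022E.V.Rel
end Vale.Agent.P022E.V.Rel
namespace Vale.Agent.P022D.V.Rl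
end Vale.Agent.P022D.V.Rl
namespace Vale.Agent.P022E.V.Rl
end Vale.Agent.P022E.V.Rl
namespace Vale.Agent.P022D.V.Ser
end Vale.Agent.P022D.V.Ser
namespace Vale.Agent.P022E.V.Ser
end Vale.Agent.P022E.V.Ser
namespace Vale.Agent.P022D.V.Sp
end Vale.Agent.P022D.V.Sp
namespace Vale.Agent.P022E.V.Sp
end Vale.Agent.P022E.V.Sp
namespace Vale.Agent.P022D.V.Tn
end Vale.Agent.P022D.V.Tn
namespace Vale.Agent.P022E.V.Tn
end Vale.Agent.P022E.V.Tn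
namespace Vale.Agent.P022D.V.Tr
end Vale.Agent.P022D.V.Tr
namespace Vale.Agent.P022E.V.Tr
end Vale.Agent.P022E.V.Tr
namespace Vale.Agent.P022D.V.Unif
end Vale.Agent.P022D.V.Unif
namespace Vale.Agent.P022E.V.Unif
end Vale.Agent.P022E.V.Unif
namespace Vale.Agent.P022D.V.Wq
end Vale.Agent.P022D.V.Wq
namespace Vale.Agent.P022E.V.Wq
end Vale.Agent.P022E.V.Wq
namespace Vale.Agent.P022D.W.LR
end Vale.Agent.P022D.W.LR
namespace Vale.Agent.P022E.W.LR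
end Vale.Agent.P022E.W.LR
namespace Vale.Agent.P022D.W.Lift
end Vale.Agent.P022D.W.Lift
namespace Vale.Agent.P022E.W.Lift
end Vale.Agent.P022E.W.Lift
namespace Vale.Agent.P022D.W.Mon
end Vale.Agent.P022D.W.Mon
namespace Vale.Agent.P022E.W.Mon
end Vale.Agent.P022E.W.Mon
namespace Vale.Agent.P022D.W.OddMod
end Vale.Agent.P022D.W.OddMod
namespace Vale.Agent.P022E.W.OddMod
end Vale.Agent.P022E.W.OddMod
namespace Vale.Agent.P022D.W.Pr
end Vale.Agent.P022D.W.Pr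
namespace Vale.Agent.P022E.W.Pr
end Vale.Agent.P022E.W.Pr
namespace Vale.Agent.P022D.W.ProOdd
end Vale.Agent.P022D.W.ProOdd
namespace Vale.Agent.P022E.W.ProOdd
end Vale.Agent.P022E.W.ProOdd
namespace Vale.Agent.P022D.W.Step.Cs
end Vale.Agent.P022D.W.Step.Cs
namespace Vale.Agent.P022E.W.Step.Cs
end Vale.Agent.P022E.W.Step.Cs
namespace Vale.Agent.P022D.W.Step.Dat
end Vale.Agent.P022D.W.Step.Dat
namespace Vale.Agent.P022E.W.Step.Dat
end Vale.Agent.P022E.W.Step.Dat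
namespace Vale.Agent.P022D.W.Step.Deg
end Vale.Agent.P022D.W.Step.Deg
namespace Vale.Agent.P022E.W.Step.Deg
end Vale.Agent.P022E.W.Step.Deg
namespace Vale.Agent.P022D.W.TameAt
end Vale.Agent.P022D.W.TameAt
namespace Vale.Agent.P022E.W.TameAt
end Vale.Agent.P022E.W.TameAt
namespace Vale.Agent.P022D.W.Two
end Vale.Agent.P022D.W.Two
namespace Vale.Agent.P022E.W.Two
end Vale.Agent.P022E.W.Two
namespace Vale.Agent.P022D.W.WD
end Vale.Agent.P022D.W.WD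
namespace Vale.Agent.P022E.W.WD
end Vale.Agent.P022E.W.WD
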