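import Vale.Agent.P022.H933.St.Def
import Vale.Agent.P022D.St

/-!
P022: residual modularity in Serre's level (words of the statement). `ℚ̄` is Mathlib's algebraic
closure of `ℚ`, `k` a field of characteristic two.
-/

open NumberField Matrix

noncomputable section

namespace Vale.Agent.P022.St

/-- `g` lies in a decomposition group at `p`: it preserves some prime ideal above `p` -/
def IsDec (p : ℕ) (g : AlgebraicClosure ℚ ≃ₐ[ℚ] AlgebraicClosure ℚ) : Prop :=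
  ∃ P : Ideal (𝓞 (AlgebraicClosure ℚ)), P.IsPrime ∧ (p : 𝓞 (AlgebraicClosure ℚ)) ∈ P ∧
    ∀ x ∈ P, g • x ∈ P

/-- `ρ` is modular of level `N`: for some `w` there is a ring homomorphism from the Hecke ring
`T_{≤ w}(N)` to `k` which sends `T_ℓ` and `ℓ S_ℓ` to the trace and the determinant of the
Frobenius elements at `ℓ`, for all primes `ℓ ∤ 2N` -/
def ModAt {k : Type} [Field k] (N : ℕ) [NeZero N]
    (ρ : (AlgebraicClosure ℚ ≃ₐ[ℚ] AlgebraicClosure ℚ) →* GL (Fin 2) k) : Prop :=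
  ∃ (w : ℕ) (lam : TR N w →+* k), ∀ (ℓ : Pr N) (t s : TA N w),
    (t : EndW N w) = opT N w ℓ → (s : EndW N w) = opS N w ℓ →
    ∀ g : AlgebraicClosure ℚ ≃ₐ[ℚ] AlgebraicClosure ℚ, IsFrob ℓ.1 g →
      lam t = (ρ g : Matrix (Fin 2) (Fin 2) k).trace ∧ lam s = (ρ g : Matrix (Fin 2) (Fin 2) k).det

/-- `ρ` is a twist `χ ρ₁` of a representation `ρ₁` of determinant one which is modular of an odd
level `N > 1` such that `ρ₁` is ramified at every prime `p ∣ N`, and `p ^ 2 ∣ N` only if the trace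
of `ρ₁` does not vanish identically on the decomposition groups at `p` -/
def Serre {k : Type} [Field k]
    (ρ : (AlgebraicClosure ℚ ≃ₐ[ℚ] AlgebraicClosure ℚ) →* GL (Fin 2) k) : Prop :=
  ∃ (χ : (AlgebraicClosure ℚ ≃ₐ[ℚ] AlgebraicClosure ℚ) →* kˣ)
    (ρ₁ : (AlgebraicClosure ℚ ≃ₐ[ℚ] AlgebraicClosure ℚ) →* GL (Fin 2) k) (N : ℕ) (_ : NeZero N),
    (∀ g, (ρ g : Matrix (Fin 2) (Fin 2) k) = (χ g : k) • (ρ₁ g : Matrix (Fin 2) (Fin 2) k)) ∧
    (∀ g, (ρ₁ g : Matrix (Fin 2) (Fin 2) k).det = 1) ∧ Odd N ∧ 1 < N ∧ ModAt N ρ₁ ∧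
    (∀ p : ℕ, p.Prime → p ∣ N → ¬ UnrAt ρ₁ p) ∧
    ∀ p : ℕ, p.Prime → p ^ 2 ∣ N →
      ∃ g, IsDec p g ∧ (ρ₁ g : Matrix (Fin 2) (Fin 2) k).trace ≠ 0

end Vale.Agent.P022.St
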